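import Vale.Agent.P145W.Stag
import Vale.Agent.P145.Gff

/-! Transfer of the scaling limit, whole line. -/

open MeasureTheory Filter Topology Vale.Agent.P152 Vale.Agent.P145

noncomputable section

namespace Vale.Agent.P145W

variable {P : Measure (Cfg ℤ ℤ)} [IsProbabilityMeasure P] {σ : ℝ} {f : ℂ → ℝ}

theorem var_lin (hG : P152Z.Good (P.map ht)) (hV : P152Z.LogV P σ) (M : ℝ) :
    ∃ C : ℝ, 0 ≤ C ∧ ∀ δ : ℝ, 0 < δ → ∀ x : ℤ × ℤ,
    ‖pt δ x‖ ≤ M → ∫ ω, (ht ω x : ℝ) ^ 2 ∂P ≤ C * δ⁻¹ := by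
  obtain ⟨K, hK, hv⟩ := P152Z.tr_var hG hV
  refine ⟨K * (2 * |M|), by positivity, fun δ hδ x hx => (hv x).trans ?_⟩
  have h1 := (Complex.abs_re_le_norm _).trans (hx.trans (le_abs_self M))
  have h2 := (Complex.abs_im_le_norm _).trans (hx.trans (le_abs_self M))
  rw [riem_re, abs_mul, abs_of_pos hδ] at h1
  rw [riem_im, abs_mul, abs_of_pos hδ] at h2
  rw [mul_assoc]
  refine mul_le_mul_of_nonneg_left ?_ hK
  rw [← div_eq_mul_inv, le_div_iff₀ hδ]
  linarith

theorem riemW (hG : P152Z.Good (P.map ht)) (hV : P152Z.LogV P σ) (hf : Test f) :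
    Tendsto (fun δ => ∫ ω, (fldS δ f ω - fldE δ f ω) ^ 2 ∂P) (𝓝[>] 0) (𝓝 0) := by
  obtain ⟨C, hC0, h⟩ := riem_det hf
  obtain ⟨K, hK, hv⟩ := var_lin hG hV C
  have bm : ∀ x, C4.BM fun ω => (ht ω x : ℝ) := fun x =>
    ⟨C4.ht_meas.comp (f := fun ω => (ω, x)) (measurable_id.prodMk measurable_const), _,
      fun ω => C4.ht_le ω x⟩
  have t : Tendsto (fun δ : ℝ => C ^ 4 * K * δ) (𝓝[>] 0) (𝓝 0) := by
    have : Tendsto (fun δ : ℝ => C ^ 4 * K * δ) (𝓝 0) (𝓝 (C ^ 4 * K * 0)) :=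
      tendsto_id.const_mul _
    rw [mul_zero] at this
    exact this.mono_left nhdsWithin_le_nhds
  refine squeeze_zero' (Eventually.of_forall fun δ => integral_nonneg fun ω => sq_nonneg _) ?_ t
  filter_upwards [Ioc_mem_nhdsGT one_pos] with δ hδ
  have h0 := hδ.1
  obtain ⟨T, a, h1, h2, h3⟩ := h δ hδ
  have b1 : ∀ v, C4.BM fun ω => a v * (ht ω (ev v) : ℝ) := fun v => (C4.BM.const _).mul (bm _)
  have i1 : ∀ v ∈ T, Integrable (fun ω => (a v * (ht ω (ev v) : ℝ)) ^ 2) P := fun v _ =>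
    ((b1 v).pow 2).int P
  simp only [h3]
  calc ∫ ω, (∑ v ∈ T, a v * (ht ω (ev v) : ℝ)) ^ 2 ∂P
      ≤ ∫ ω, (T.card : ℝ) * ∑ v ∈ T, (a v * (ht ω (ev v) : ℝ)) ^ 2 ∂P :=
        integral_mono (((C4.BM.sum T fun v _ => b1 v).pow 2).int P)
          ((integrable_finsetSum T i1).const_mul _) fun ω =>
          sq_sum_le_card_mul_sum_sq (s := T) (f := fun v => a v * (ht ω (ev v) : ℝ))
    _ = T.card * ∑ v ∈ T, a v ^ 2 * ∫ ω, (ht ω (ev v) : ℝ) ^ 2 ∂P := by
        rw [integral_const_mul, integral_finsetSum T i1]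
        simp only [mul_pow, integral_const_mul]
    _ ≤ T.card * (T.card • ((C * δ ^ 3) ^ 2 * (K * δ⁻¹))) := by
        refine mul_le_mul_of_nonneg_left (Finset.sum_le_card_nsmul _ _ _ fun v hv' => ?_)
          (Nat.cast_nonneg _)
        exact mul_le_mul (sq_le_sq' (abs_le.1 (h2 v hv').1).1 (abs_le.1 (h2 v hv').1).2)
          (hv δ h0 _ (h2 v hv').2)
          (integral_nonneg fun ω => sq_nonneg _) (sq_nonneg _)
    _ ≤ C / δ ^ 2 * (C / δ ^ 2 * ((C * δ ^ 3) ^ 2 * (K * δ⁻¹))) := by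
        rw [nsmul_eq_mul]
        have p : 0 ≤ (C * δ ^ 3) ^ 2 * (K * δ⁻¹) := by positivity
        exact mul_le_mul h1 (mul_le_mul_of_nonneg_right h1 p) (by positivity) (by positivity)
    _ = C ^ 4 * K * δ := by field_simp

theorem nearW (hG : P152Z.Good (P.map ht)) (hV : P152Z.LogV P σ) (hf : Test f) :
    Tendsto (fun δ => ∫ ω, (fldS δ f ω - fld δ f ω) ^ 2 ∂P) (𝓝[>] 0) (𝓝 0) := by
  have h := ((riemW hG hV hf).const_mul 2).add ((stagW hG hf).const_mul 2)
  rw [mul_zero, add_zero] at h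
  refine squeeze_zero' (Eventually.of_forall fun δ => integral_nonneg fun ω => sq_nonneg _) ?_ h
  filter_upwards [self_mem_nhdsWithin] with δ (hδ : 0 < δ)
  have a := fldS_bm δ hf
  have b := fldE_bm hδ hf
  have c := C4.fld_bm hδ hf
  have i1 := (((a.sub b).pow 2).int P).const_mul 2
  have i2 := (((b.sub c).pow 2).int P).const_mul 2
  rw [← integral_const_mul, ← integral_const_mul, ← integral_add i1 i2]
  refine integral_mono (((a.sub c).pow 2).int P) (i1.add i2) fun ω => ?_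
  simp only
  nlinarith [sq_nonneg (fldS δ f ω - 2 * fldE δ f ω + fld δ f ω)]

theorem convW (hQ : P152Z.Good (P.map ht)) (hV : P152Z.LogV P σ) (hG : ToGFF P σ) :
    ConvGFF (P.map hmap) (σ / √(8 * Real.pi)) := by
  have pp := Real.pi_pos
  intro m φ hφ
  obtain ⟨h1, h2⟩ := hG m (fun j => rot (φ j)) fun j => test_rot (hφ j)
  have e : (Matrix.of fun j k => σ ^ 2 * cov (rot (φ j)) (rot (φ k))) =
      Matrix.of fun j k => (σ / √(8 * Real.pi)) ^ 2 * green (φ j) (φ k) := by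
    ext j k
    rw [Matrix.of_apply, Matrix.of_apply, cov_rot (hφ j) (hφ k), div_pow,
      Real.sq_sqrt (by positivity)]
    ring
  rw [e] at h1 h2
  refine ⟨h1, fun g => ?_⟩
  refine (slutsky P _ (X := fun δ j => fldS δ (rot (φ j))) (Y := fun δ j => fld δ (rot (φ j)))
    (fun δ j => (fldS_bm δ (test_rot (hφ j))).1) (fun δ j => fld_meas' δ (test_rot (hφ j)))
    (fun δ hδ j => (((fldS_bm δ (test_rot (hφ j))).sub (C4.fld_bm hδ (test_rot (hφ j)))).pow 2).int P)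
    (fun j => nearW hQ hV (test_rot (hφ j))) h2 g).congr fun δ => ?_
  have m1 : Measurable fun H : Z2 → ℤ =>
      (WithLp.toLp 2 fun j => field δ (φ j) H : EuclideanSpace ℝ (Fin m)) :=
    (PiLp.continuous_toLp 2 _).measurable.comp (measurable_pi_lambda _ fun j => field_meas δ (hφ j))
  refine Eq.trans ?_ (integral_map hmap_meas.aemeasurable
    (g.continuous.measurable.comp m1).aestronglyMeasurable).symm
  simp only [Function.comp, field_rot]

end Vale.Agent.P145W
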