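import Vale.Agent.P145W.Main0
import Vale.Agent.P152Z.A
import Vale.Agent.P152N.Fin

/-! Assembly on the whole line. -/

open MeasureTheory Filter Topology Vale.Agent.P152 Vale.Agent.P145

noncomputable section

namespace Vale.Agent.P145W

theorem line {c : ℝ} (h1 : 1 < c) (h2 : c ≤ 2) :
    ∃ Q : Measure (Z2 → ℤ), IsProbabilityMeasure Q ∧ IsPlaneLimit c⁻¹ Q ∧ ∃ σ : ℝ, 0 ≤ σ ∧
      ConvGFF Q σ ∧ Tendsto (fun n : ℕ => (∫ H, (H ((n : ℤ), -(n : ℤ)) : ℝ) ^ 2 ∂Q) / Real.log n)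
        atTop (𝓝 (2 * σ ^ 2)) ∧ (√2 ≤ c → 0 < σ) := by
  obtain ⟨P, hP, hL, hB, H⟩ := P152N.exists_box h1 h2
  exact line_of h1 h2 hL (P152Z.good_of_box h1.le hB) H

theorem six_all {c : ℝ} (h1 : 1 < c) (h2 : c ≤ 2) :
    ∃ P : Measure (Cfg ℤ ℤ), IsProbabilityMeasure P ∧ IsLimit c P ∧ P152Z.IsBox c P ∧
      ∃ σ : ℝ, 0 ≤ σ ∧ ToGFF P σ ∧ P152Z.LogV P σ ∧ (√2 ≤ c → 0 < σ) := by
  obtain ⟨P, hP, hL, hB, -⟩ := P152N.exists_box h1 h2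
  exact ⟨P, hP, hL, hB, six h2 hL (P152Z.good_of_box h1.le hB)⟩

end Vale.Agent.P145W
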