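import Vale.Agent.P152Z.Tr

/-! Averages of minimal norm are almost invariant. -/

open MeasureTheory Filter Topology Vale.Agent.P152

noncomputable section

namespace Vale.Agent.P145W

variable {P : Measure (Cfg ℤ ℤ)} [IsProbabilityMeasure P]

/-- The horizontal increment. -/
def dk (k : ℤ × ℤ → ℤ) (y : ℤ × ℤ) : ℝ := (k y : ℝ) - k (y + (1, 0))

/-- The average of increments over a shifted family. -/
def av (n : ℕ) (u : ℕ → ℤ × ℤ) (y : ℤ × ℤ) (k : ℤ × ℤ → ℤ) : ℝ :=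
  (∑ i ∈ Finset.range n, dk k (u i + y)) / n

theorem dk_bm (y : ℤ × ℤ) : C4.BM fun ω => dk (ht ω) y := (P152Z.tr_bm _).sub (P152Z.tr_bm _)

theorem av_bm (n : ℕ) (u : ℕ → ℤ × ℤ) (y : ℤ × ℤ) : C4.BM fun ω => av n u y (ht ω) := by
  simp only [av, div_eq_mul_inv]
  exact (C4.BM.sum _ fun i _ => dk_bm _).mul (C4.BM.const _)

theorem av_meas (n : ℕ) (u : ℕ → ℤ × ℤ) (y : ℤ × ℤ) : Measurable (av n u y) := by
  have h : ∀ x : ℤ × ℤ, Measurable fun k : ℤ × ℤ → ℤ => (k x : ℝ) := fun x =>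
    (Measurable.of_discrete (f := fun n : ℤ => (n : ℝ))).comp (measurable_pi_apply x)
  exact (Finset.measurable_sum _ fun i _ => (h _).sub (h _)).div_const _

theorem av_shift (hG : P152Z.Good (P.map ht)) (n : ℕ) (u : ℕ → ℤ × ℤ) (y : ℤ × ℤ) :
    ∫ ω, av n u y (ht ω) ^ 2 ∂P = ∫ ω, av n u 0 (ht ω) ^ 2 ∂P := by
  have hl : P152Z.Loc ((Finset.range n).biUnion fun i => {u i + 0, u i + 0 + (1, 0)})
      fun k => av n u 0 k ^ 2 := fun k k' h => by
    simp only [av]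
    congr 2
    refine Finset.sum_congr rfl fun i hi => ?_
    have h1 := h (u i + 0) (Finset.mem_biUnion.2 ⟨i, hi, by simp⟩) (u i + 0 + (1, 0))
      (Finset.mem_biUnion.2 ⟨i, hi, by simp⟩)
    simp only [dk]
    exact_mod_cast h1
  have h := hG.shift _ _ hl y
  have e : ∀ k : ℤ × ℤ → ℤ, av n u 0 (fun x => k (x + y)) = av n u y k := fun k => by
    simp only [av, dk, add_zero, add_right_comm _ ((1, 0) : ℤ × ℤ) y]
  simp only [e] at h
  rwa [integral_map P152Z.tr_hm.aemeasurable ((av_meas n u y).pow_const 2).aestronglyMeasurable,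
    integral_map P152Z.tr_hm.aemeasurable ((av_meas n u 0).pow_const 2).aestronglyMeasurable] at h

theorem erg (hG : P152Z.Good (P.map ht)) {ε : ℝ} (hε : 0 < ε) :
    ∃ (n : ℕ) (u : ℕ → ℤ × ℤ), 0 < n ∧ (∀ i, Even ((u i).1 + (u i).2)) ∧ ∀ y : ℤ × ℤ,
      Even (y.1 + y.2) → ∫ ω, (av n u y (ht ω) - av n u 0 (ht ω)) ^ 2 ∂P ≤ ε := by
  set A : Set ℝ := {r | ∃ (n : ℕ) (u : ℕ → ℤ × ℤ), 0 < n ∧ (∀ i, Even ((u i).1 + (u i).2)) ∧
    r = ∫ ω, av n u 0 (ht ω) ^ 2 ∂P} with hA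
  have hne : A.Nonempty := ⟨_, 1, fun _ => 0, one_pos, fun _ => by simp, rfl⟩
  have hb : BddBelow A := ⟨0, by
    rintro _ ⟨n, u, -, -, rfl⟩
    exact integral_nonneg fun ω => sq_nonneg _⟩
  obtain ⟨_, ⟨n, u, hn, hu, rfl⟩, hlt⟩ := Real.lt_sInf_add_pos hne (show 0 < ε / 4 by positivity)
  refine ⟨n, u, hn, hu, fun y hy => ?_⟩
  set u' : ℕ → ℤ × ℤ := fun i => if i < n then u i else u (i - n) + y with hu'
  have h1 : sInf A ≤ ∫ ω, av (n + n) u' 0 (ht ω) ^ 2 ∂P :=
    csInf_le hb ⟨n + n, u', by omega, fun i => by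
      simp only [hu']
      split_ifs
      · exact hu i
      · have := (hu (i - n)).add hy
        simpa only [Prod.fst_add, Prod.snd_add, add_add_add_comm] using this, rfl⟩
  have n0 : (n : ℝ) ≠ 0 := by exact_mod_cast hn.ne'
  have e : ∀ k, av (n + n) u' 0 k = (av n u 0 k + av n u y k) / 2 := fun k => by
    have a1 : ∑ i ∈ Finset.range n, dk k (u' i + 0) = ∑ i ∈ Finset.range n, dk k (u i + 0) :=
      Finset.sum_congr rfl fun i hi => by simp only [hu', if_pos (Finset.mem_range.1 hi)]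
    have a2 : ∑ i ∈ Finset.range n, dk k (u' (n + i) + 0) =
        ∑ i ∈ Finset.range n, dk k (u i + y) :=
      Finset.sum_congr rfl fun i _ => by
        simp only [hu', if_neg (show ¬n + i < n by omega), Nat.add_sub_cancel_left, add_zero]
    simp only [av]
    rw [Finset.sum_range_add, a1, a2]
    push_cast
    field_simp
    ring
  have e2 : ∀ ω, (av n u y (ht ω) - av n u 0 (ht ω)) ^ 2 = 2 * av n u y (ht ω) ^ 2 +
      2 * av n u 0 (ht ω) ^ 2 - 4 * av (n + n) u' 0 (ht ω) ^ 2 := fun ω => by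
    rw [e]
    ring
  have i : ∀ m v x, Integrable (fun ω => av m v x (ht ω) ^ 2) P := fun m v x =>
    ((av_bm m v x).pow 2).int P
  simp only [e2]
  have j : Integrable (fun ω => 2 * av n u y (ht ω) ^ 2 + 2 * av n u 0 (ht ω) ^ 2) P :=
    ((i _ _ _).const_mul 2).add ((i _ _ _).const_mul 2)
  rw [integral_sub j ((i _ _ _).const_mul 4),
    integral_add ((i _ _ _).const_mul 2) ((i _ _ _).const_mul 2), integral_const_mul,
    integral_const_mul, integral_const_mul, av_shift hG]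
  linarith

end Vale.Agent.P145W
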