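import Vale.Agent.P145W.Gff
import Vale.Agent.P145.Loc
import Vale.Agent.P145.Enc

/-! The plane limit and the variance, whole line. -/

open MeasureTheory Filter Topology Vale.Agent.P152 Vale.Agent.P145

noncomputable section

namespace Vale.Agent.P145W

variable {P : Measure (Cfg ℤ ℤ)} [IsProbabilityMeasure P] {σ : ℝ}

theorem plane_limW {c : ℝ} (cp : 0 < c)
    (H : ∀ (R : ℕ → ℕ) (W : ℕ → ℤ × ℤ → Tr), Tendsto R atTop atTop →
      (∀ n v, W n v = (1, 1, c) ∨ W n v = tri v (1, 0, 1)) →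
      (∀ v, ∀ᶠ n in atTop, W n v = W0 c v) → ∀ g : Cfg ℤ ℤ → ℝ, Loc g →
      Tendsto (fun n => HW (W n) (R n) (fun h => g (arr h) + g (flp (arr h))) /
        HW (W n) (R n) fun _ => 1) atTop (𝓝 (2 * ∫ ω, g ω ∂P))) :
    IsPlaneLimit c⁻¹ (P.map hmap) := by
  intro F hF hx S k
  set R : ℕ → ℕ := fun n => n + (F n).sup fun f => f.1.natAbs + f.2.natAbs + 3 with hRd
  have hS : ∀ n, Small (F n) (R n) := fun n f hf => by
    have a := Finset.le_sup (f := fun f : Z2 => f.1.natAbs + f.2.natAbs + 3) hf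
    have b : R n = n + (F n).sup fun f => f.1.natAbs + f.2.natAbs + 3 := rfl
    rw [Int.abs_eq_natAbs, Int.abs_eq_natAbs]
    omega
  have hR : Tendsto R atTop atTop := tendsto_atTop_mono (fun n => Nat.le_add_right _ _) tendsto_id
  have hW : ∀ v, ∀ᶠ n in atTop, WF (F n) c v = W0 c v := fun v => by
    obtain ⟨e, rfl⟩ := vx_bij.2 v
    filter_upwards [hx e.1, hx (side e)] with n a b
    exact if_pos (Finset.mem_image_of_mem _ (Finset.mem_filter.2
      ⟨Finset.mem_product.2 ⟨a, Finset.mem_univ _⟩, b⟩))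
  have h := (H R (fun n => WF (F n) c) hR (fun n v => by
    unfold WF
    split_ifs
    · exact .inl rfl
    · exact .inr rfl) hW _ (loc_gk S k)).const_mul 2⁻¹
  have m : MeasurableSet {H : Z2 → ℤ | ∀ v ∈ S, H v = k v} := by
    rw [Set.ofPred_forall]
    refine MeasurableSet.iInter fun v => ?_
    by_cases hv : v ∈ S
    · simp only [hv, true_imp_iff]
      exact measurableSet_eq_fun (measurable_pi_apply v) measurable_const
    · simp [hv]
  have e : ∫ ω, gk S k ω ∂P = (P.map hmap).real {H | ∀ v ∈ S, H v = k v} := by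
    rw [map_measureReal_apply hmap_meas m, ← integral_indicator_one (hmap_meas m)]
    refine integral_congr_ae (ae_of_all _ fun ω => ?_)
    simp only [gk, Set.indicator, Set.mem_preimage, Set.mem_ofPred_eq, Pi.one_apply]
  rw [inv_mul_cancel_left₀ two_ne_zero, e] at h
  refine h.congr fun n => ?_
  have a1 := prob_eq (hF n) (hS n) cp (Evt (F n) S k)
  have a2 := prob_eq (hF n) (hS n) cp (Evt (F n) S fun v => -k v)
  rw [HW_congr (hF n) (hS n) cp fun h hh hA => evt_gk (hF n) (hS n) S _ hh hA] at a1 a2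
  rw [prob_neg] at a2
  simp only [gk_flp]
  rw [HW_add, add_div, ← a1, ← a2, ← two_mul, inv_mul_cancel_left₀ two_ne_zero]
  rfl

theorem log_var (hV : P152Z.LogV P σ) :
    Tendsto (fun n : ℕ => (∫ H, (H ((n : ℤ), -(n : ℤ)) : ℝ) ^ 2 ∂(P.map hmap)) / Real.log n) atTop
      (𝓝 (2 * (σ / √(8 * Real.pi)) ^ 2)) := by
  have pp := Real.pi_pos
  have t2 : Tendsto (fun n : ℕ => 2 * n) atTop atTop :=
    tendsto_atTop_mono (fun n => by simp only [id]; omega) tendsto_id
  have tl : Tendsto (fun n : ℕ => Real.log n) atTop atTop :=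
    Real.tendsto_log_atTop.comp tendsto_natCast_atTop_atTop
  have h1 := ((hV.comp t2).mul ((tl.const_div_atTop (Real.log 2)).add_const 1)).const_mul 4⁻¹
  have e : 4⁻¹ * (σ ^ 2 / Real.pi * (0 + 1)) = 2 * (σ / √(8 * Real.pi)) ^ 2 := by
    rw [div_pow, Real.sq_sqrt (by positivity)]
    field_simp
    ring
  rw [e] at h1
  refine h1.congr' ?_
  filter_upwards [eventually_ge_atTop 2] with n hn
  have n2 : (2 : ℝ) ≤ n := by exact_mod_cast hn
  have l1 : 0 < Real.log n := Real.log_pos (by linarith)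
  have l2 : 0 < Real.log 2 := Real.log_pos one_lt_two
  have m : Measurable fun H : Z2 → ℤ => (H ((n : ℤ), -(n : ℤ)) : ℝ) ^ 2 :=
    ((Measurable.of_discrete (f := fun n : ℤ => (n : ℝ))).comp (measurable_pi_apply _)).pow_const 2
  have e2 : ∀ ω, (hmap ω ((n : ℤ), -(n : ℤ)) : ℝ) ^ 2 =
      4⁻¹ * (ht ω (((2 * n : ℕ) : ℤ), 0) : ℝ) ^ 2 := fun ω => by
    have a := ht_par ω (((2 * n : ℕ) : ℤ), 0)
    have b : ev ((n : ℤ), -(n : ℤ)) = (((2 * n : ℕ) : ℤ), 0) := by
      simp only [ev]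
      ext <;> simp
      ring
    have d : ht ω (((2 * n : ℕ) : ℤ), 0) = 2 * hmap ω ((n : ℤ), -(n : ℤ)) := by
      rw [hmap, b]
      simp only at a
      omega
    rw [d]
    push_cast
    ring
  rw [integral_map hmap_meas.aemeasurable m.aestronglyMeasurable]
  simp only [e2, Function.comp, integral_const_mul]
  have e3 : Real.log ((2 * n : ℕ) : ℝ) = Real.log 2 + Real.log n := by
    rw [Nat.cast_mul, Nat.cast_ofNat, Real.log_mul two_ne_zero (by linarith)]
  rw [e3]
  field_simp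

theorem par_rangeW {J U : ℝ} (h1 : U ≤ J)
    (h : Real.sinh (2 * J) = Real.exp (-2 * U)) :
    1 < √(1 + Real.exp (4 * U)) ∧ √(1 + Real.exp (4 * U)) ≤ 2 := by
  have e0 := Real.exp_pos (4 * U)
  refine ⟨Real.lt_sqrt_of_sq_lt (by linarith), ?_⟩
  rcases le_total 0 U with h0 | h0
  · exact (par_range h0 h1 h).2
  · have : Real.exp (4 * U) ≤ 1 := Real.exp_le_one_iff.2 (by linarith)
    exact Real.sqrt_le_iff.2 ⟨zero_le_two, by linarith⟩

end Vale.Agent.P145W
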