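import Vale.Agent.P152Z.Tr
import Vale.Agent.P152Z.T6
import Vale.Agent.P152.Main

/-! Uniqueness of the limit and of the constant; positivity above the free fermion point. -/

open MeasureTheory Filter Topology Vale.Agent.P152

noncomputable section

namespace Vale.Agent.P145W

theorem lim_unique {c : ℝ} {P P' : Measure (Cfg ℤ ℤ)} [IsProbabilityMeasure P]
    [IsProbabilityMeasure P'] (h : IsLimit c P) (h' : IsLimit c P') : P = P' := by
  classical
  have hm : ∀ (S : Finset (ℤ × ℤ × Bool)) (η : Cfg ℤ ℤ),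
      MeasurableSet {ω : Cfg ℤ ℤ | ∀ e ∈ S, ω e = η e} := fun S η => by
    have e : {ω : Cfg ℤ ℤ | ∀ e ∈ S, ω e = η e} = ⋂ e ∈ S, (fun ω : Cfg ℤ ℤ => ω e) ⁻¹' {η e} := by
      ext ω; simp
    rw [e]
    exact S.measurableSet_biInter fun x _ => measurable_pi_apply x (measurableSet_singleton _)
  refine ext_of_generate_finite {s | ∃ (S : Finset (ℤ × ℤ × Bool)) (η : Cfg ℤ ℤ),
    s = {ω | ∀ e ∈ S, ω e = η e}} (le_antisymm ?_ (MeasurableSpace.generateFrom_le ?_)) ?_ ?_
    (by simp)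
  · refine iSup_le fun e => Measurable.comap_le ?_
    refine @measurable_to_countable' _ _ _ _ (MeasurableSpace.generateFrom _) _ fun b => ?_
    exact MeasurableSpace.measurableSet_generateFrom ⟨{e}, fun _ => b, by ext ω; simp⟩
  · rintro _ ⟨S, η, rfl⟩
    exact hm S η
  · rintro _ ⟨S, η, rfl⟩ _ ⟨T, ξ, rfl⟩ ⟨ω, h1, h2⟩
    refine ⟨S ∪ T, ω, Set.ext fun x => ⟨fun a e he => ?_, fun a => ⟨fun e he => ?_, fun e he => ?_⟩⟩⟩
    · rcases Finset.mem_union.1 he with b | b
      · exact (a.1 e b).trans (h1 e b).symm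
      · exact (a.2 e b).trans (h2 e b).symm
    · exact (a e (Finset.mem_union_left _ he)).trans (h1 e he)
    · exact (a e (Finset.mem_union_right _ he)).trans (h2 e he)
  · rintro _ ⟨S, η, rfl⟩
    obtain ⟨a, a1, a2⟩ := h S η
    obtain ⟨b, b1, b2⟩ := h' S η
    have e : a = b := funext fun L => tendsto_nhds_unique (a1 L) (b1 L)
    subst e
    exact (measureReal_eq_measureReal_iff (measure_ne_top _ _) (measure_ne_top _ _)).1
      (tendsto_nhds_unique a2 b2)

theorem sig_unique {P : Measure (Cfg ℤ ℤ)} {σ σ' : ℝ} (h : ToGFF P σ) (h' : ToGFF P σ') :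
    σ ^ 2 = σ' ^ 2 := by
  obtain ⟨v, hv, h1, -⟩ := P152Z.exists_unit
  have ht : P152Z.Test (P152Z.lap v) := hv.test_lap
  rw [P152Z.tr_cov ht ht] at h1
  obtain ⟨a1, a2⟩ := h 1 (fun _ => P152Z.lap v) fun _ => ht
  obtain ⟨b1, b2⟩ := h' 1 (fun _ => P152Z.lap v) fun _ => ht
  have e := ext_of_forall_integral_eq_of_IsFiniteMeasure fun φ =>
    tendsto_nhds_unique (a2 φ) (b2 φ)
  have v1 := ProbabilityTheory.variance_eval_multivariateGaussian (μ := 0) a1 0
  have v2 := ProbabilityTheory.variance_eval_multivariateGaussian (μ := 0) b1 0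
  rw [e, v2] at v1
  simpa only [Matrix.of_apply, h1, mul_one] using v1.symm

theorem sig_pos {c σ : ℝ} {P : Measure (Cfg ℤ ℤ)} [IsProbabilityMeasure P] (h0 : √2 ≤ c)
    (h1 : c ≤ 2) (hL : IsLimit c P) (hσ : 0 ≤ σ) (hG : ToGFF P σ) : 0 < σ := by
  obtain ⟨P', i, hL', σ', p, hG'⟩ := main c h0 h1
  rw [← lim_unique hL hL'] at hG'
  have e := sig_unique hG hG'
  exact lt_of_le_of_ne hσ fun z => by
    rw [← z] at e
    nlinarith

end Vale.Agent.P145W
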