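import Vale.Agent.P145W.Loc
import Vale.Agent.P145W.Uni
import Vale.Agent.P152Z.Main
import Vale.Agent.P152N.D

/-! Assembly from the existence of the limit. -/

open MeasureTheory Filter Topology Vale.Agent.P152 Vale.Agent.P145

noncomputable section

namespace Vale.Agent.P145W

theorem six {c : ℝ} (h2 : c ≤ 2) {P : Measure (Cfg ℤ ℤ)} [IsProbabilityMeasure P]
    (hL : IsLimit c P) (hG : P152Z.Good (P.map ht)) :
    ∃ σ : ℝ, 0 ≤ σ ∧ ToGFF P σ ∧ P152Z.LogV P σ ∧ (√2 ≤ c → 0 < σ) := by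
  haveI : IsProbabilityMeasure (P.map ht) :=
    Measure.isProbabilityMeasure_map P152Z.tr_hm.aemeasurable
  obtain ⟨σ, h0, a, b⟩ := P152Z.main_of_good _ hG
  obtain ⟨a', b'⟩ := P152Z.transfer hG a b
  exact ⟨σ, h0, a', b', fun h => sig_pos h h2 hL h0 a'⟩

theorem line_of {c : ℝ} (h1 : 1 < c) (h2 : c ≤ 2) {P : Measure (Cfg ℤ ℤ)} [IsProbabilityMeasure P]
    (hL : IsLimit c P) (hG : P152Z.Good (P.map ht))
    (H : ∀ g, P152.Loc g → ∀ (R : ℕ → ℕ) (W : ℕ → ℤ × ℤ → Tr), Tendsto R atTop atTop →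
      (∀ n v, P152N.Mon (W n v)) → (∀ v, ∀ᶠ n in atTop, W n v = W0 c v) →
      Tendsto (fun n => HW (W n) (R n) (fun h => g (arr h) + g (flp (arr h))) /
        HW (W n) (R n) fun _ => 1) atTop (𝓝 (2 * ∫ ω, g ω ∂P))) :
    ∃ Q : Measure (Z2 → ℤ), IsProbabilityMeasure Q ∧ IsPlaneLimit c⁻¹ Q ∧ ∃ σ : ℝ, 0 ≤ σ ∧
      ConvGFF Q σ ∧ Tendsto (fun n : ℕ => (∫ H, (H ((n : ℤ), -(n : ℤ)) : ℝ) ^ 2 ∂Q) / Real.log n)
        atTop (𝓝 (2 * σ ^ 2)) ∧ (√2 ≤ c → 0 < σ) := by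
  obtain ⟨σ, h0, a, b, d⟩ := six h2 hL hG
  have pp := Real.pi_pos
  refine ⟨P.map hmap, Measure.isProbabilityMeasure_map hmap_meas.aemeasurable,
    plane_limW (one_pos.trans h1) fun R W hR hW hv g hg => H g hg R W hR (fun n v => ?_) hv,
    σ / √(8 * Real.pi), by positivity, convW hG b a, log_var b, fun h => ?_⟩
  · rcases hW n v with e | e <;> rw [e]
    · exact P152N.mon_W0 h1.le v
    · exact P152N.Mon.tri ⟨zero_le_one, le_rfl, le_rfl, zero_le_one, one_pos⟩ v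
  · have := d h
    positivity

end Vale.Agent.P145W
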