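import Vale.Agent.P145W.Erg
import Vale.Agent.P153.T3

/-! The staggered term vanishes, by translation invariance alone. -/

open MeasureTheory Filter Topology Vale.Agent.P152 Vale.Agent.P145

noncomputable section

namespace Vale.Agent.P145W

variable {P : Measure (Cfg ℤ ℤ)} [IsProbabilityMeasure P] {f : ℂ → ℝ} {δ : ℝ}

/-- Indicator of the odd cells. -/
def oc (δ : ℝ) (z : ℂ) : ℝ := if Even ((fc δ z).1 + (fc δ z).2) then 0 else 1

theorem oc_meas (δ : ℝ) : Measurable (oc δ) :=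
  (measurable_of_countable fun x : ℤ × ℤ => if Even (x.1 + x.2) then (0 : ℝ) else 1).comp
    (C4.fc_meas δ)

theorem oc_le (δ : ℝ) (z : ℂ) : |oc δ z| ≤ 1 := by
  unfold oc
  split_ifs <;> simp

theorem oc_int {h : ℂ → ℝ} (hh : Integrable h) (δ : ℝ) : Integrable fun z => oc δ z * h z :=
  hh.norm.mono' ((oc_meas δ).aestronglyMeasurable.mul hh.1) (ae_of_all _ fun z => by
    rw [norm_mul]
    exact mul_le_of_le_one_left (norm_nonneg _) (oc_le δ z))

theorem st_abs {F G : ℂ → ℝ} (hG : Integrable G) (h : ∀ z, |F z| ≤ G z) :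
    |∫ z, F z| ≤ ∫ z, G z := by
  rw [← Real.norm_eq_abs]
  exact norm_integral_le_of_norm_le hG (ae_of_all _ h)

theorem lev_meas (δ : ℝ) : Measurable fun z => lev (fc δ z) :=
  (measurable_of_countable lev).comp (C4.fc_meas δ)

theorem st_int (hδ : 0 < δ) (hf : Test f) (a : ℂ) (F : ℤ × ℤ → ℝ) :
    Integrable fun z => oc δ z * f (z - a) * F (lev (fc δ z)) := by
  obtain ⟨D, hD⟩ := C4.c4ba_supp hf.2.1
  have h0 : Integrable f := hf.1.continuous.integrable_of_hasCompactSupport hf.2.1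
  exact (C4bV_rep (oc_int (h0.comp_sub_right a) δ) (lev_meas δ) (fun w hw =>
    Finset.mem_image_of_mem lev (P152Z.tr_box (D := D + ‖a‖) hδ (by
      have h1 := hD _ (right_ne_zero_of_mul hw)
      have h2 := norm_add_le (w - a) a
      rw [sub_add_cancel] at h2
      linarith))) F).1

theorem st_shift (hδ : 0 < δ) {u : ℤ × ℤ} (hu : Even (u.1 + u.2)) (f : ℂ → ℝ) (F : ℤ × ℤ → ℝ) :
    ∫ z, oc δ z * f z * F (u + lev (fc δ z)) =
      ∫ w, oc δ w * f (w - δ * P152Z.pos u) * F (lev (fc δ w)) := by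
  rw [← integral_sub_right_eq_self _ ((δ : ℂ) * P152Z.pos u)]
  refine integral_congr_ae (ae_of_all _ fun w => ?_)
  have h := eq_sub_of_add_eq (P152Z.tr_fc hδ u w)
  simp only [oc, h]
  generalize fc δ w = x
  have e : Even ((x - u).1 + (x - u).2) ↔ Even (x.1 + x.2) := by
    simp only [Prod.fst_sub, Prod.snd_sub, Int.even_iff] at hu ⊢
    omega
  have e2 : u + lev (x - u) = lev x := by
    simp only [lev, e]
    split_ifs <;> ext <;> simp <;> ring
  simp only [e, e2]

theorem st_odd (hδ : 0 < δ) (hf : Test f) :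
    |∫ z, oc δ z * f z| ≤ ∫ z, |f (z - δ * P152Z.pos (1, 0)) - f z| := by
  set a : ℂ := δ * P152Z.pos (1, 0) with ha
  have h0 : Integrable f := hf.1.continuous.integrable_of_hasCompactSupport hf.2.1
  have h1 := h0.comp_sub_right a
  have e1 : ∫ z, oc δ z * f z = ∫ w, f (w - a) - oc δ w * f (w - a) := by
    rw [← integral_sub_right_eq_self _ a]
    refine integral_congr_ae (ae_of_all _ fun w => ?_)
    have h := eq_sub_of_add_eq (P152Z.tr_fc hδ (1, 0) w)
    simp only [oc, ha, h]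
    generalize fc δ w = x
    have e : Even ((x - (1, 0)).1 + (x - (1, 0)).2) ↔ ¬Even (x.1 + x.2) := by
      simp only [Prod.fst_sub, Prod.snd_sub, Int.even_iff]
      omega
    simp only [e]
    split_ifs <;> simp
  rw [integral_sub h1 (oc_int h1 δ), integral_sub_right_eq_self f a, hf.2.2, zero_sub] at e1
  have e2 : |∫ z, oc δ z * (f (z - a) - f z)| ≤ ∫ z, |f (z - a) - f z| :=
    st_abs (h1.sub h0).abs fun z => by
      rw [abs_mul]
      exact mul_le_of_le_one_left (abs_nonneg _) (oc_le δ z)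
  simp only [mul_sub] at e2
  rw [integral_sub (oc_int h1 δ) (oc_int h0 δ)] at e2
  have e3 := abs_nonneg (∫ z, oc δ z * f z)
  rw [abs_le] at e2 ⊢
  constructor <;> linarith [e2.1, e2.2]

theorem st_eq (hδ : 0 < δ) (hf : Test f) (ω : Cfg ℤ ℤ) : fldE δ f ω - fld δ f ω =
    ∫ z, oc δ z * f z * dk (ht ω) (lev (fc δ z)) := by
  have e1 : fld δ f ω = ∫ z : ℂ, (ht ω (fc δ z) : ℝ) * f z := rfl
  have hA := C4.adm_area hf
  obtain ⟨D, hD⟩ := hA.bd
  have i2 : Integrable fun z : ℂ => (ht ω (fc δ z) : ℝ) * f z :=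
    (C4.pf_int hδ hA.ig hA.mz hD ω).congr (Eventually.of_forall fun z => mul_comm _ _)
  rw [e1, fldE, ← integral_sub (fldE_int hδ hf ω) i2]
  refine integral_congr_ae (ae_of_all _ fun z => ?_)
  simp only [oc, dk]
  generalize fc δ z = x
  unfold lev
  split_ifs
  · simp
  · have e : ((x.1 - 1, x.2) : ℤ × ℤ) + (1, 0) = x := by ext <;> simp
    rw [e]
    ring

theorem st_det (hδ : 0 < δ) (hf : Test f) {k : ℤ × ℤ → ℤ} (hk : ∀ y, |dk k y| ≤ 1) {n : ℕ}
    (hn : 0 < n) {u : ℕ → ℤ × ℤ} (hu : ∀ i, Even ((u i).1 + (u i).2)) :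
    |(∫ z, oc δ z * f z * dk k (lev (fc δ z))) -
      ∫ z, oc δ z * f z * (av n u (lev (fc δ z)) k - av n u 0 k)| ≤
      (∑ i ∈ Finset.range n, ∫ z, |f (z - δ * P152Z.pos (u i)) - f z|) / n +
        ∫ z, |f (z - δ * P152Z.pos (1, 0)) - f z| := by
  have n0 : (0 : ℝ) < n := by exact_mod_cast hn
  have h0 : Integrable f := hf.1.continuous.integrable_of_hasCompactSupport hf.2.1
  have i0 : ∀ F : ℤ × ℤ → ℝ, Integrable fun z => oc δ z * f z * F (lev (fc δ z)) := fun F => by
    simpa only [sub_zero] using st_int hδ hf 0 F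
  have e1 : ∫ z, oc δ z * f z * (av n u (lev (fc δ z)) k - av n u 0 k) =
      (∑ i ∈ Finset.range n, ∫ w, oc δ w * f (w - δ * P152Z.pos (u i)) * dk k (lev (fc δ w))) / n -
        (∫ z, oc δ z * f z) * av n u 0 k := by
    simp only [mul_sub]
    rw [integral_sub (i0 fun y => av n u y k) (i0 fun _ => av n u 0 k), integral_mul_const]
    congr 1
    simp only [av, ← mul_div_assoc, Finset.mul_sum]
    rw [integral_div, integral_finsetSum _ fun i _ => i0 fun y => dk k (u i + y)]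
    congr 1
    exact Finset.sum_congr rfl fun i _ => st_shift hδ (hu i) f (dk k)
  have b1 : |av n u 0 k| ≤ 1 := by
    rw [av, abs_div, abs_of_pos n0, div_le_one n0]
    refine (Finset.abs_sum_le_sum_abs _ _).trans ?_
    simpa using Finset.sum_le_card_nsmul (Finset.range n) _ 1 fun i _ => hk (u i + 0)
  have b2 : |(∫ z, oc δ z * f z) * av n u 0 k| ≤ ∫ z, |f (z - δ * P152Z.pos (1, 0)) - f z| := by
    rw [abs_mul]
    exact (mul_le_of_le_one_right (abs_nonneg _) b1).trans (st_odd hδ hf)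
  have b3 : ∀ a : ℂ, |(∫ z, oc δ z * f z * dk k (lev (fc δ z))) -
      ∫ w, oc δ w * f (w - a) * dk k (lev (fc δ w))| ≤ ∫ z, |f (z - a) - f z| := fun a => by
    rw [← integral_sub (i0 _) (st_int hδ hf a _)]
    refine st_abs ((h0.comp_sub_right a).sub h0).abs fun z => ?_
    rw [← sub_mul, ← mul_sub, abs_mul, abs_mul, abs_sub_comm (f z)]
    exact (mul_le_of_le_one_right (by positivity) (hk _)).trans
      (mul_le_of_le_one_left (abs_nonneg _) (oc_le δ z))
  have b4 := (Finset.abs_sum_le_sum_abs _ (Finset.range n)).trans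
    (Finset.sum_le_sum fun i _ => b3 (δ * P152Z.pos (u i)))
  rw [Finset.sum_sub_distrib, Finset.sum_const, Finset.card_range, nsmul_eq_mul] at b4
  rw [e1, ← sub_add]
  refine (abs_add_le _ _).trans (add_le_add ?_ b2)
  rw [le_div_iff₀ n0, ← abs_of_pos n0, ← abs_mul, abs_of_pos n0, sub_mul, div_mul_cancel₀ _ n0.ne',
    mul_comm]
  exact b4

theorem stagW (hG : P152Z.Good (P.map ht)) (hf : Test f) :
    Tendsto (fun δ => ∫ ω, (fldE δ f ω - fld δ f ω) ^ 2 ∂P) (𝓝[>] 0) (𝓝 0) := by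
  have h0 : Integrable f := hf.1.continuous.integrable_of_hasCompactSupport hf.2.1
  have hk : ∀ᵐ ω ∂P, ∀ y, |dk (ht ω) y| ≤ 1 :=
    (ae_of_ae_map P152Z.tr_hm.aemeasurable hG.lip).mono fun ω h y => by
      rw [dk, abs_sub_comm]
      exact_mod_cast (h.1 y).1
  obtain ⟨D, hD⟩ := C4.c4ba_supp hf.2.1
  set B := ∫ z, |f z| with hB
  have hL : ∀ v : ℤ × ℤ, Tendsto (fun δ : ℝ => ∫ z, |f (z - δ * P152Z.pos v) - f z|) (𝓝[>] 0)
      (𝓝 0) := fun v => by
    have t : Tendsto (fun δ : ℝ => (δ : ℂ) * P152Z.pos v) (𝓝 0) (𝓝 0) := by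
      have := (Complex.continuous_ofReal.tendsto 0).mul_const (P152Z.pos v)
      simpa using this
    exact ((P153.l1_tr (f := f) ⟨hf.1, hf.2.1⟩).comp t).mono_left nhdsWithin_le_nhds
  refine tendsto_order.2 ⟨fun a ha => Eventually.of_forall fun δ =>
    ha.trans_le (integral_nonneg fun ω => sq_nonneg _), fun ε hε => ?_⟩
  obtain ⟨n, u, hn, hu, he⟩ := erg hG (ε := ε / 8 / (B ^ 2 + 1)) (by positivity)
  have t := (((((tendsto_finsetSum (Finset.range n) fun i _ => hL (u i)).div_const (n : ℝ)).add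
    (hL (1, 0))).pow 2).const_mul 2).eventually (gt_mem_nhds (a := ε / 2) (by simpa using hε))
  filter_upwards [t, self_mem_nhdsWithin] with δ h1 (hδ : 0 < δ)
  obtain ⟨r1, r2⟩ := P152Z.tr_sq (P := P) (X := fun y ω => av n u (lev y) (ht ω) - av n u 0 (ht ω))
    (fun y => (av_bm _ _ _).sub (av_bm _ _ _)) (oc_int h0 δ) (C4.fc_meas δ)
    (fun w hw => P152Z.tr_box hδ (hD w (right_ne_zero_of_mul hw))) (fun y _ => he (lev y) (by
      unfold lev
      split_ifs with h
      · exact h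
      · simp only [Int.even_iff] at h ⊢
        omega)) (by positivity)
  have r3 : (∫ z, |oc δ z * f z|) ^ 2 ≤ B ^ 2 + 1 := by
    have := integral_mono (oc_int h0 δ).abs h0.abs fun z => by
      simp only [abs_mul]
      exact mul_le_of_le_one_left (abs_nonneg _) (oc_le δ z)
    linarith [pow_le_pow_left₀ (integral_nonneg fun _ => abs_nonneg _) this 2]
  have r4 := r2.trans (mul_le_mul_of_nonneg_right r3 (by positivity))
  rw [mul_div_cancel₀ _ (by positivity)] at r4
  have i1 := ((r1.pow 2).int P).const_mul 2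
  refine lt_of_le_of_lt (integral_mono_ae
    ((((fldE_bm hδ hf).sub (C4.fld_bm hδ hf)).pow 2).int P) (i1.add (integrable_const _))
    (hk.mono fun ω hω => ?_)) (?_ : ∫ ω, (2 * (∫ z, oc δ z * f z *
      (av n u (lev (fc δ z)) (ht ω) - av n u 0 (ht ω))) ^ 2 + ε / 2) ∂P < ε)
  · have h2 := st_det hδ hf hω hn hu
    have h3 := sq_le_sq' (abs_le.1 h2).1 (abs_le.1 h2).2
    simp only [st_eq hδ hf, Pi.add_apply]
    nlinarith [sq_nonneg ((∫ z, oc δ z * f z * dk (ht ω) (lev (fc δ z))) - 2 *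
      ∫ z, oc δ z * f z * (av n u (lev (fc δ z)) (ht ω) - av n u 0 (ht ω)))]
  · rw [integral_add i1 (integrable_const _), integral_const_mul, integral_const, probReal_univ,
      one_smul]
    linarith

end Vale.Agent.P145W
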